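import Mathlib

/-!
# P126: dual separated sets of several scales combine

`Lev K Y j` holds the differences of two points of `K`, scaled by `2^-j`, that are at most `2` on `Y`.
Sets separated on the levels of one residue class mod `d` combine with the weights `2^-j` into one
separated subset of `Y`.
-/

namespace Vale.Agent.P126

open Finset Real
open scoped RealInnerProductSpace

noncomputable section

variable {V : Type*} [NormedAddCommGroup V] [InnerProductSpace ℝ V]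

/-- The level `j` set. -/
def Lev (K Y : Set V) (j : ℕ) : Set V :=
  {x | (∃ k₁ ∈ K, ∃ k₂ ∈ K, x = ((1 / 2 : ℝ) ^ j) • (k₁ - k₂)) ∧ ∀ y ∈ Y, |⟪x, y⟫| ≤ 2}

/-- A subset of `Y` pairwise separated by more than `δ` at level `j`. -/
def IsSep (K Y : Set V) (δ : ℝ) (j : ℕ) (P : Finset V) : Prop :=
  ↑P ⊆ Y ∧ ∀ p ∈ P, ∀ q ∈ P, p ≠ q → ∃ x ∈ Lev K Y j, δ < |⟪x, p - q⟫|

theorem sum_geometric_le (Q : Finset ℕ) (d : ℕ) (hd : ∀ i ∈ Q, d ≤ i) :
    ∑ i ∈ Q, (1 / 2 : ℝ) ^ i ≤ 2 * (1 / 2) ^ d := by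
  have h : ∑ i ∈ Q, (1 / 2 : ℝ) ^ i = (1 / 2) ^ d * ∑ l ∈ Q.image (· - d), (1 / 2 : ℝ) ^ l := by
    rw [sum_image, mul_sum]
    · exact sum_congr rfl fun i hi => by rw [← pow_add, Nat.add_sub_cancel' (hd i hi)]
    · intro a ha b hb hab
      have := hd a ha
      have := hd b hb
      simp only at hab
      omega
  rw [h, mul_comm (2 : ℝ)]
  refine mul_le_mul_of_nonneg_left ?_ (by positivity)
  refine le_trans (sum_le_sum_of_subset_of_nonneg (fun l hl => ?_) fun _ _ _ => by positivity)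
    (sum_geometric_two_le ((Q.image (· - d)).sup id + 1))
  exact mem_range.2 (Nat.lt_succ_of_le (le_sup (f := id) hl))

open Classical in
/-- The weighted combination of one point at each level of `S`. -/
def combo (S : Finset ℕ) (p : ∀ a ∈ S, V) : V :=
  ∑ a ∈ S, ((1 / 2 : ℝ) * (1 / 2) ^ a) • if h : a ∈ S then p a h else 0

theorem combo_mem {Y : Set V} (hY : Convex ℝ Y) (h0 : (0 : V) ∈ Y) (S : Finset ℕ) (p : ∀ a ∈ S, V)
    (hp : ∀ a h, p a h ∈ Y) : combo S p ∈ Y := by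
  classical
  set w : ℕ → ℝ := fun a => 1 / 2 * (1 / 2) ^ a with hw
  set g : ℕ → V := fun a => if h : a ∈ S then p a h else 0 with hg
  change ∑ a ∈ S, w a • g a ∈ Y
  rcases S.eq_empty_or_nonempty with hS | hS
  · subst hS; simpa using h0
  have hW : 0 < ∑ a ∈ S, w a := sum_pos (fun a _ => by positivity) hS
  have hW1 : ∑ a ∈ S, w a ≤ 1 := by
    rw [hw, ← mul_sum]
    have := sum_geometric_le S 0 fun i _ => Nat.zero_le i
    rw [pow_zero] at this
    linarith
  have hc : S.centerMass w g ∈ Y :=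
    hY.centerMass_mem (fun a _ => by positivity) hW fun a ha => by
      rw [hg]; simp only [dif_pos ha]; exact hp a ha
  have h := hY.smul_mem_of_zero_mem h0 hc ⟨hW.le, hW1⟩
  rwa [centerMass, smul_smul, mul_inv_cancel₀ hW.ne', one_smul] at h

/-- The product of separated sets along one residue class is bounded by the covering number. -/
theorem prod_sep_le {K Y : Set V} (hY : Convex ℝ Y) (h0 : (0 : V) ∈ Y) (t : Finset V)
    {δ : ℝ} (ht : ∀ y ∈ Y, ∃ c ∈ t, ∀ k ∈ K, |⟪k, y - c⟫| ≤ δ / 16) {d : ℕ}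
    (hd : (1 / 2 : ℝ) ^ d ≤ δ / 32) (S : Finset ℕ) (hS : ∀ i ∈ S, ∀ j ∈ S, i < j → i + d ≤ j)
    (P : ℕ → Finset V) (hP : ∀ j ∈ S, IsSep K Y δ j (P j)) :
    ∏ j ∈ S, (P j).card ≤ t.card := by
  classical
  choose! cell hcell hcellK using ht
  rw [← card_pi]
  refine card_le_card_of_injOn (fun p => cell (combo S p)) (fun p hp => ?_) fun p hp q hq hpq => ?_
  · exact hcell _ (combo_mem hY h0 S p fun a ha => (hP a ha).1 (Finset.mem_pi.1 hp a ha))
  by_contra hne
  set g : ℕ → V := fun a => if h : a ∈ S then p a h - q a h else 0 with hg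
  set D : Finset ℕ := S.filter fun a => g a ≠ 0 with hD
  have hDne : D.Nonempty := by
    by_contra h
    rw [not_nonempty_iff_eq_empty, hD, filter_eq_empty_iff] at h
    exact hne (funext fun a => funext fun ha => sub_eq_zero.1 (by
      have := not_not.1 (h ha); simpa only [hg, dif_pos ha] using this))
  set j := D.min' hDne with hj
  have hjS : j ∈ S := (mem_filter.1 (D.min'_mem hDne)).1
  have hgj : g j ≠ 0 := (mem_filter.1 (D.min'_mem hDne)).2
  have hpj := Finset.mem_pi.1 hp j hjS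
  have hqj := Finset.mem_pi.1 hq j hjS
  have hpqj : p j hjS ≠ q j hjS := fun h => hgj (by rw [hg]; simp only [dif_pos hjS]; rw [h, sub_self])
  obtain ⟨x, ⟨⟨k₁, hk₁, k₂, hk₂, hxk⟩, hx2⟩, hx⟩ := (hP j hjS).2 _ hpj _ hqj hpqj
  have hk : k₁ - k₂ = (2 : ℝ) ^ j • x := by
    rw [hxk, smul_smul, ← mul_pow]; norm_num
  have hy := combo_mem hY h0 S p fun a ha => (hP a ha).1 (Finset.mem_pi.1 hp a ha)
  have hy' := combo_mem hY h0 S q fun a ha => (hP a ha).1 (Finset.mem_pi.1 hq a ha)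
  have hdiff : combo S p - combo S q = ∑ a ∈ S, ((1 / 2 : ℝ) * (1 / 2) ^ a) • g a := by
    rw [combo, combo, ← sum_sub_distrib]
    refine sum_congr rfl fun a ha => ?_
    rw [← smul_sub, hg]; simp only [dif_pos ha]
  have hsmall : |⟪k₁ - k₂, combo S p - combo S q⟫| ≤ δ / 4 := by
    have e : combo S p - combo S q =
        (combo S p - cell (combo S p)) - (combo S q - cell (combo S q)) := by
      rw [show cell (combo S p) = cell (combo S q) from hpq]; abel
    have a1 := abs_le.1 (hcellK _ hy k₁ hk₁)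
    have a2 := abs_le.1 (hcellK _ hy k₂ hk₂)
    have b1 := abs_le.1 (hcellK _ hy' k₁ hk₁)
    have b2 := abs_le.1 (hcellK _ hy' k₂ hk₂)
    rw [e, inner_sub_left, inner_sub_right k₁, inner_sub_right k₂, abs_le]
    constructor <;> linarith
  rw [hdiff, inner_sum, ← add_sum_erase S _ hjS] at hsmall
  have hmain : ⟪k₁ - k₂, ((1 / 2 : ℝ) * (1 / 2) ^ j) • g j⟫ = 1 / 2 * ⟪x, p j hjS - q j hjS⟫ := by
    rw [hk, inner_smul_right, inner_smul_left, hg]
    simp only [dif_pos hjS, conj_trivial]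
    rw [mul_assoc, ← mul_assoc ((1 / 2 : ℝ) ^ j), ← mul_pow]
    norm_num
  have hrest : |∑ a ∈ S.erase j, ⟪k₁ - k₂, ((1 / 2 : ℝ) * (1 / 2) ^ a) • g a⟫| ≤ δ / 8 := by
    refine (abs_sum_le_sum_abs _ _).trans ?_
    have hb : ∀ a ∈ S.erase j, |⟪k₁ - k₂, ((1 / 2 : ℝ) * (1 / 2) ^ a) • g a⟫|
        ≤ if j + d ≤ a then 2 * (2 : ℝ) ^ j * (1 / 2) ^ a else 0 := by
      intro a ha
      obtain ⟨haj, haS⟩ := mem_erase.1 ha
      by_cases hga : g a = 0
      · rw [hga]; simp only [smul_zero, inner_zero_right, abs_zero]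
        split_ifs <;> positivity
      · have hle : j ≤ a := D.min'_le a (mem_filter.2 ⟨haS, hga⟩)
        rw [if_pos (hS j hjS a haS (lt_of_le_of_ne hle (Ne.symm haj)))]
        rw [hk, inner_smul_right, inner_smul_left, conj_trivial, abs_mul, abs_mul ((2 : ℝ) ^ j)]
        have hg4 : |⟪x, g a⟫| ≤ 4 := by
          have h1 := abs_le.1 (hx2 _ ((hP a haS).1 (Finset.mem_pi.1 hp a haS)))
          have h2 := abs_le.1 (hx2 _ ((hP a haS).1 (Finset.mem_pi.1 hq a haS)))
          rw [hg]; simp only [dif_pos haS]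
          rw [inner_sub_right, abs_le]; constructor <;> linarith
        rw [abs_of_pos (show (0 : ℝ) < 1 / 2 * (1 / 2) ^ a by positivity),
          abs_of_pos (show (0 : ℝ) < 2 ^ j by positivity)]
        calc (1 / 2 : ℝ) * (1 / 2) ^ a * (2 ^ j * |⟪x, g a⟫|)
            ≤ 1 / 2 * (1 / 2) ^ a * (2 ^ j * 4) := by gcongr
          _ = _ := by ring
    refine (sum_le_sum hb).trans ?_
    rw [← sum_filter, ← mul_sum]
    have := sum_geometric_le ((S.erase j).filter fun a => j + d ≤ a) (j + d)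
      fun a ha => (mem_filter.1 ha).2
    calc 2 * (2 : ℝ) ^ j * ∑ a ∈ (S.erase j).filter (fun a => j + d ≤ a), (1 / 2 : ℝ) ^ a
        ≤ 2 * (2 : ℝ) ^ j * (2 * (1 / 2) ^ (j + d)) := by gcongr
      _ = 4 * ((2 : ℝ) * (1 / 2)) ^ j * (1 / 2) ^ d := by rw [pow_add, mul_pow]; ring
      _ ≤ δ / 8 := by norm_num; linarith
  rw [hmain] at hsmall
  have h1 := abs_add_le (1 / 2 * ⟪x, p j hjS - q j hjS⟫
    + ∑ a ∈ S.erase j, ⟪k₁ - k₂, ((1 / 2 : ℝ) * (1 / 2) ^ a) • g a⟫)
    (-∑ a ∈ S.erase j, ⟪k₁ - k₂, ((1 / 2 : ℝ) * (1 / 2) ^ a) • g a⟫)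
  rw [abs_neg, add_neg_cancel_right, abs_mul, abs_of_pos (show (0 : ℝ) < 1 / 2 by norm_num)] at h1
  have h2 : (0 : ℝ) < (1 / 2) ^ d := by positivity
  linarith

end

end Vale.Agent.P126
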