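import Vale.Agent.P126.Local
import Vale.Agent.P126.Pack

/-!
# P126: all scales

If `Y` is covered by `m` cells of radius `δ/16` for the seminorm given by `K`, then `K` splits into
`exp (2 d T log m)` classes of diameter `1` for the seminorm given by `Y`; `T` is the number of
tilting rounds and `d` the gap between combined scales.
-/

namespace Vale.Agent.P126

open Finset Real
open scoped RealInnerProductSpace

noncomputable section

variable {V : Type*} [NormedAddCommGroup V] [InnerProductSpace ℝ V] {K Y : Set V}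

theorem exists_maximal_sep (hY : Convex ℝ Y) (h0 : (0 : V) ∈ Y) (t : Finset V)
    {δ : ℝ} (ht : ∀ y ∈ Y, ∃ c ∈ t, ∀ k ∈ K, |⟪k, y - c⟫| ≤ δ / 16) {d : ℕ}
    (hd : (1 / 2 : ℝ) ^ d ≤ δ / 32) (j : ℕ) :
    ∃ P : Finset V, IsSep K Y δ j P ∧ P.Nonempty ∧
      ∀ y ∈ Y, ∃ z ∈ P, ∀ x ∈ Lev K Y j, |⟪x, y - z⟫| ≤ δ := by
  classical
  have hδ : 0 < δ := by
    have : (0 : ℝ) < (1 / 2) ^ d := by positivity
    linarith
  have hbd : ∀ P, IsSep K Y δ j P → P.card ≤ t.card := fun P hP => by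
    have := prod_sep_le hY h0 t ht hd {j} (by simp) (fun _ => P) (by simpa using hP)
    simpa using this
  set Q : ℕ → Prop := fun n => ∃ P : Finset V, IsSep K Y δ j P ∧ P.card = n with hQ
  have hone : Q 1 := ⟨{0}, ⟨by simpa using h0, by simp⟩, by simp⟩
  have h1 : 1 ≤ t.card := by
    obtain ⟨P, hP, hP1⟩ := hone
    exact hP1 ▸ hbd P hP
  obtain ⟨P, hP, hPc⟩ : Q (Nat.findGreatest Q t.card) := Nat.findGreatest_spec h1 hone
  have hpos : 1 ≤ P.card := hPc ▸ Nat.le_findGreatest h1 hone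
  refine ⟨P, hP, card_pos.1 hpos, fun y hy => ?_⟩
  by_contra! h
  have hyP : y ∉ P := fun hyP => by
    obtain ⟨x, _, hx⟩ := h y hyP
    rw [sub_self, inner_zero_right, abs_zero] at hx
    linarith
  have hins : IsSep K Y δ j (insert y P) := by
    refine ⟨by rw [coe_insert]; exact Set.insert_subset hy hP.1, fun p hp q hq hpq => ?_⟩
    rcases mem_insert.1 hp with rfl | hp' <;> rcases mem_insert.1 hq with rfl | hq'
    · exact absurd rfl hpq
    · exact h q hq'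
    · obtain ⟨x, hx, hx'⟩ := h p hp'
      exact ⟨x, hx, by rwa [← neg_sub, inner_neg_right, abs_neg]⟩
    · exact hP.2 p hp' q hq' hpq
  have h2 : Q (P.card + 1) := ⟨_, hins, card_insert_of_notMem hyP⟩
  have h3 := Nat.le_findGreatest ((card_insert_of_notMem hyP).symm ▸ hbd _ hins) h2
  omega

/-- One level: refine classes of diameter `2^(j+1)` into classes of diameter `2^j`. -/
theorem refine_level (j : ℕ) {N M : ℕ} [NeZero N] (c : V → Fin N)
    (hc : ∀ x ∈ K, ∀ x' ∈ K, c x = c x' → ∀ y ∈ Y, |⟪x - x', y⟫| ≤ (2 : ℝ) ^ (j + 1))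
    (d : V → Fin M)
    (hd : ∀ x ∈ Lev K Y j, ∀ x' ∈ Lev K Y j, d x = d x' → ∀ y ∈ Y, |⟪x - x', y⟫| ≤ 1) :
    ∃ c' : V → Fin (N * M), ∀ x ∈ K, ∀ x' ∈ K, c' x = c' x' →
      ∀ y ∈ Y, |⟪x - x', y⟫| ≤ (2 : ℝ) ^ j := by
  classical
  let rep : Fin N → V := fun i => if h : ∃ r ∈ K, c r = i then h.choose else 0
  refine ⟨fun x => finProdFinEquiv (c x, d (((1 / 2 : ℝ) ^ j) • (x - rep (c x)))),
    fun x hx x' hx' h y hy => ?_⟩
  obtain ⟨h1, h2⟩ := Prod.ext_iff.1 (finProdFinEquiv.injective h)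
  simp only at h1 h2
  have hex : ∃ r ∈ K, c r = c x := ⟨x, hx, rfl⟩
  have hr : rep (c x) ∈ K ∧ c (rep (c x)) = c x := by
    simp only [rep, dif_pos hex]; exact hex.choose_spec
  have hlev : ∀ z ∈ K, c z = c x → ((1 / 2 : ℝ) ^ j) • (z - rep (c z)) ∈ Lev K Y j := by
    intro z hz hzx
    rw [hzx]
    refine ⟨⟨z, hz, _, hr.1, rfl⟩, fun w hw => ?_⟩
    have := hc z hz _ hr.1 (hzx.trans hr.2.symm) w hw
    rw [inner_smul_left, conj_trivial, abs_mul, abs_of_pos (by positivity)]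
    calc (1 / 2 : ℝ) ^ j * |⟪z - rep (c x), w⟫| ≤ (1 / 2) ^ j * 2 ^ (j + 1) := by gcongr
      _ = 2 := by rw [pow_succ, ← mul_assoc, ← mul_pow]; norm_num
  have h3 := hd _ (hlev x hx rfl) _ (hlev x' hx' h1.symm) h2 y hy
  rw [← h1, ← smul_sub, sub_sub_sub_cancel_right, inner_smul_left, conj_trivial, abs_mul,
    abs_of_pos (by positivity)] at h3
  calc |⟪x - x', y⟫| = (2 : ℝ) ^ j * ((1 / 2) ^ j * |⟪x - x', y⟫|) := by
        rw [← mul_assoc, ← mul_pow]; norm_num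
    _ ≤ 2 ^ j * 1 := by gcongr
    _ = _ := mul_one _

theorem residue_sum_le (J d : ℕ) (hd : 0 < d) (l : ℕ → ℝ) (L : ℝ)
    (hres : ∀ r < d, ∑ j ∈ (range J).filter (fun j => j % d = r), l j ≤ L) :
    ∑ j ∈ range J, l j ≤ d * L := by
  rw [← sum_fiberwise_of_maps_to (t := range d) (g := fun j => j % d)
    fun j _ => mem_range.2 (Nat.mod_lt j hd)]
  calc ∑ r ∈ range d, ∑ j ∈ (range J).filter (fun j => j % d = r), l j
      ≤ ∑ _r ∈ range d, L := sum_le_sum fun r hr => hres r (mem_range.1 hr)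
    _ = _ := by rw [sum_const, card_range, nsmul_eq_mul]

/-- The main inequality in code form. -/
theorem exists_code (hY : Convex ℝ Y) (h0 : (0 : V) ∈ Y) (hsym : ∀ y ∈ Y, -y ∈ Y) (J : ℕ)
    (hJ : ∀ x ∈ K, ∀ x' ∈ K, ∀ y ∈ Y, |⟪x - x', y⟫| ≤ (2 : ℝ) ^ J) (t : Finset V)
    {δ R : ℝ} (ht : ∀ y ∈ Y, ∃ c ∈ t, ∀ k ∈ K, |⟪k, y - c⟫| ≤ δ / 16) {d : ℕ} (hd0 : 0 < d)
    (hd : (1 / 2 : ℝ) ^ d ≤ δ / 32) {lev : ℕ} (hlev : 100 * δ * lev ≤ 1) (hlev1 : 1 ≤ lev)
    (hR : 1 ≤ R) (hR2 : 10000 * log (t.card : ℝ) ≤ (2 * R) ^ lev) (T : ℕ)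
    (hT : lev + R * log (10000 * log (t.card : ℝ)) + 1 ≤ T) :
    ∃ N : ℕ, 0 < N ∧ log N ≤ 2 * T * d * log (t.card : ℝ) ∧
      ∃ c : V → Fin N, ∀ x ∈ K, ∀ x' ∈ K, c x = c x' → ∀ y ∈ Y, |⟪x - x', y⟫| ≤ 1 := by
  classical
  have hδ : 0 < δ := by
    have : (0 : ℝ) < (1 / 2) ^ d := by positivity
    linarith
  choose P hP hPne hPnet using exists_maximal_sep hY h0 t ht hd
  set l : ℕ → ℝ := fun j => log ((P j).card : ℝ) with hl
  have hPL : ∀ j, log ((P j).card : ℝ) ≤ log (t.card : ℝ) := fun j => by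
    refine log_le_log (by exact_mod_cast (hPne j).card_pos) ?_
    have := prod_sep_le hY h0 t ht hd {j} (by simp) P fun i _ => hP i
    rw [prod_singleton] at this
    exact_mod_cast this
  have hstep : ∀ i ≤ J, ∃ N : ℕ, 0 < N ∧ log N ≤ 2 * T * ∑ j ∈ Ico (J - i) J, l j ∧
      ∃ c : V → Fin N, ∀ x ∈ K, ∀ x' ∈ K, c x = c x' →
        ∀ y ∈ Y, |⟪x - x', y⟫| ≤ (2 : ℝ) ^ (J - i) := by
    intro i
    induction i with
    | zero => exact fun _ => ⟨1, one_pos, by simp, fun _ => 0, fun x hx x' hx' _ => hJ x hx x' hx'⟩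
    | succ i ih =>
      intro hi
      obtain ⟨N, hN, hlogN, c, hc⟩ := ih (Nat.le_of_succ_le hi)
      set j := J - (i + 1) with hj
      have hji : J - i = j + 1 := by omega
      obtain ⟨M, hM, hlogM, e, he⟩ := local_code (A := Lev K Y j) hY hsym (hP j).1 (hPne j)
        (fun x hx y hy => hx.2 y hy) hδ hlev hlev1 (hPnet j) hR (hPL j) hR2 T hT
      have : NeZero N := ⟨hN.ne'⟩
      rw [hji] at hc hlogN
      obtain ⟨c', hc'⟩ := refine_level j c hc e he
      refine ⟨N * M, Nat.mul_pos hN hM, ?_, c', hc'⟩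
      rw [sum_eq_sum_Ico_succ_bot (show j < J by omega)]
      push_cast
      rw [log_mul (by positivity) (by positivity)]
      have : log M ≤ 2 * T * l j := hlogM
      linarith
  obtain ⟨N, hN, hlogN, c, hc⟩ := hstep J le_rfl
  rw [Nat.sub_self] at hlogN hc
  refine ⟨N, hN, hlogN.trans ?_, c, by simpa using hc⟩
  rw [Nat.Ico_zero_eq_range, mul_assoc (2 * (T : ℝ))]
  refine mul_le_mul_of_nonneg_left (residue_sum_le J d hd0 l _ fun r _ => ?_) (by positivity)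
  have hprod := prod_sep_le hY h0 t ht hd ((range J).filter fun j => j % d = r)
    (fun a ha b hb hab => by
      simp only [mem_filter] at ha hb
      have h := Nat.ModEq.add_le_of_lt (show a % d = b % d by omega) hab
      exact h) P fun j _ => hP j
  have hpos : ∀ j ∈ (range J).filter (fun j => j % d = r), ((P j).card : ℝ) ≠ 0 :=
    fun j _ => by exact_mod_cast (hPne j).card_pos.ne'
  rw [hl, ← log_prod hpos]
  refine log_le_log (prod_pos fun j _ => by exact_mod_cast (hPne j).card_pos) ?_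
  exact_mod_cast hprod

end

end Vale.Agent.P126
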