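import Vale.Agent.P126.Defs
import Vale.Agent.P126.Scales

/-!
# P126: weak duality for covering numbers of convex bodies
-/

namespace Vale.Agent.P126

open Set Real
open scoped RealInnerProductSpace Pointwise

noncomputable section

variable {n : ℕ} {K L : Set (EuclideanSpace ℝ (Fin n))}

theorem IsBody.zero_mem_interior (hK : IsBody K) : (0 : EuclideanSpace ℝ (Fin n)) ∈ interior K := by
  obtain ⟨hc, -, ⟨x, hx⟩, hs⟩ := hK
  have hneg : -x ∈ interior K :=
    mem_interior.2 ⟨-(interior K), fun z hz => by simpa using hs _ (interior_subset hz),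
      isOpen_interior.neg, by simpa using hx⟩
  simpa using hc.interior.midpoint_mem hx hneg

theorem IsBody.exists_ball (hK : IsBody K) : ∃ r > 0, Metric.closedBall 0 r ⊆ K := by
  obtain ⟨r, hr, h⟩ := Metric.isOpen_iff.1 isOpen_interior _ hK.zero_mem_interior
  exact ⟨r / 2, by positivity,
    (Metric.closedBall_subset_ball (by linarith)).trans (h.trans interior_subset)⟩

theorem IsBody.smul (hK : IsBody K) {c : ℝ} (hc : 0 < c) : IsBody (c • K) := by
  refine ⟨hK.1.smul c, hK.2.1.smul c, ?_, ?_⟩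
  · rw [interior_smul₀ hc.ne']
    exact hK.2.2.1.smul_set
  · rintro _ ⟨x, hx, rfl⟩
    exact ⟨-x, hK.2.2.2 x hx, by simp⟩

theorem IsBody.polar (hK : IsBody K) : IsBody (polarSet K) := by
  obtain ⟨r, hr, hball⟩ := hK.exists_ball
  obtain ⟨R, hR⟩ := hK.2.1.isBounded.subset_closedBall 0
  have hclosed : IsClosed (polarSet K) := by
    rw [show polarSet K = ⋂ x ∈ K, {y | ⟪x, y⟫ ≤ 1} by ext; simp [polarSet]]
    exact isClosed_biInter fun x _ => isClosed_le (by fun_prop) continuous_const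
  refine ⟨?_, ?_, ⟨0, ?_⟩, ?_⟩
  · intro y hy y' hy' a b ha hb hab x hx
    rw [inner_add_right, inner_smul_right, inner_smul_right]
    nlinarith [hy x hx, hy' x hx]
  · refine (isCompact_closedBall (0 : EuclideanSpace ℝ (Fin n)) r⁻¹).of_isClosed_subset hclosed ?_
    intro y hy
    rw [mem_closedBall_zero_iff]
    rcases eq_or_ne y 0 with rfl | h0
    · simpa using hr.le
    have hy0 : 0 < ‖y‖ := norm_pos_iff.2 h0
    have hmem : (r / ‖y‖) • y ∈ K := hball <| by
      rw [mem_closedBall_zero_iff, norm_smul, norm_div, norm_norm, Real.norm_of_nonneg hr.le,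
        div_mul_cancel₀ _ hy0.ne']
    have h := hy _ hmem
    rw [inner_smul_left, real_inner_self_eq_norm_sq, conj_trivial, sq, ← mul_assoc,
      div_mul_cancel₀ _ hy0.ne'] at h
    rw [← one_div, le_div_iff₀ hr]
    linarith
  · have hR' : 0 < |R| + 1 := by positivity
    refine mem_interior.2 ⟨Metric.ball 0 (|R| + 1)⁻¹, fun y hy x hx => ?_, Metric.isOpen_ball,
      Metric.mem_ball_self (inv_pos.2 hR')⟩
    rw [mem_ball_zero_iff] at hy
    have hx' : ‖x‖ ≤ |R| + 1 := by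
      have := mem_closedBall_zero_iff.1 (hR hx); linarith [le_abs_self R]
    calc ⟪x, y⟫ ≤ ‖x‖ * ‖y‖ := real_inner_le_norm x y
      _ ≤ (|R| + 1) * (|R| + 1)⁻¹ := mul_le_mul hx' hy.le (norm_nonneg _) hR'.le
      _ = 1 := mul_inv_cancel₀ hR'.ne'
  · intro y hy x hx
    have := hy (-x) (hK.2.2.2 x hx)
    rwa [inner_neg_left, ← inner_neg_right] at this

theorem mem_of_forall_polar (hK : IsBody K) {x : EuclideanSpace ℝ (Fin n)}
    (h : ∀ y ∈ polarSet K, ⟪x, y⟫ ≤ 1) : x ∈ K := by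
  by_contra hx
  obtain ⟨f, u, hfu, hu⟩ := geometric_hahn_banach_closed_point hK.1 hK.2.1.isClosed hx
  have hu0 : 0 < u := by simpa using hfu 0 (interior_subset hK.zero_mem_interior)
  set w := (InnerProductSpace.toDual ℝ (EuclideanSpace ℝ (Fin n))).symm f with hw
  have hf : ∀ z, ⟪w, z⟫ = f z := fun z => InnerProductSpace.toDual_symm_apply
  have hmem : u⁻¹ • w ∈ polarSet K := fun z hz => by
    rw [inner_smul_right, real_inner_comm, hf, inv_mul_le_iff₀ hu0, mul_one]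
    exact (hfu z hz).le
  have := h _ hmem
  rw [inner_smul_right, real_inner_comm, hf, inv_mul_le_iff₀ hu0, mul_one] at this
  linarith

theorem polarSet_polarSet (hK : IsBody K) : polarSet (polarSet K) = K :=
  Subset.antisymm
    (fun x hx => mem_of_forall_polar hK fun y hy => by rw [real_inner_comm]; exact hx y hy)
    fun x hx y hy => by rw [real_inner_comm]; exact hy x hx

theorem polarSet_smul (K : Set (EuclideanSpace ℝ (Fin n))) {c : ℝ} (hc : c ≠ 0) :
    polarSet (c • K) = c⁻¹ • polarSet K := by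
  ext y
  rw [mem_inv_smul_set_iff₀ hc]
  simp only [polarSet, Set.mem_ofPred_eq, ← Set.image_smul, Set.forall_mem_image]
  simp only [inner_smul_left, inner_smul_right, conj_trivial]

theorem covN_spec (hK : IsCompact K) (hL : (interior L).Nonempty) :
    ∃ t : Finset (EuclideanSpace ℝ (Fin n)), t.card = covN K L ∧ K ⊆ ⋃ x ∈ t, x +ᵥ L := by
  classical
  refine Nat.sInf_mem (s := {m | ∃ t : Finset (EuclideanSpace ℝ (Fin n)), t.card = m ∧
    K ⊆ ⋃ x ∈ t, x +ᵥ L}) ?_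
  obtain ⟨l, hl⟩ := hL
  obtain ⟨t, ht⟩ := hK.elim_finite_subcover (fun x => x +ᵥ interior L)
    (fun x => isOpen_interior.vadd x) fun z _ =>
      mem_iUnion.2 ⟨z - l, l, hl, by simp [vadd_eq_add]⟩
  exact ⟨t.card, t, rfl, ht.trans (iUnion₂_mono fun x _ => vadd_set_mono interior_subset)⟩

theorem covN_smul {c : ℝ} (hc : c ≠ 0) (A B : Set (EuclideanSpace ℝ (Fin n))) :
    covN (c • A) (c • B) = covN A B := by
  classical
  have key : ∀ (c : ℝ) (A B : Set (EuclideanSpace ℝ (Fin n))) (t : Finset (EuclideanSpace ℝ (Fin n))),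
      A ⊆ ⋃ x ∈ t, x +ᵥ B → c • A ⊆ ⋃ x ∈ t.image (fun x => c • x), x +ᵥ (c • B) := by
    intro c A B t ht
    rintro _ ⟨z, hz, rfl⟩
    obtain ⟨x, hx, b, hb, rfl⟩ := mem_iUnion₂.1 (ht hz)
    exact mem_iUnion₂.2 ⟨c • x, Finset.mem_image_of_mem _ hx, c • b, smul_mem_smul_set hb,
      by simp [vadd_eq_add, smul_add]⟩
  unfold covN
  congr 1
  ext m
  constructor
  · rintro ⟨t, rfl, ht⟩
    refine ⟨t.image (fun x => c⁻¹ • x),
      Finset.card_image_of_injective _ (smul_right_injective _ (inv_ne_zero hc)), ?_⟩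
    have := key c⁻¹ _ _ t ht
    rwa [inv_smul_smul₀ hc, inv_smul_smul₀ hc] at this
  · rintro ⟨t, rfl, ht⟩
    exact ⟨t.image (fun x => c • x),
      Finset.card_image_of_injective _ (smul_right_injective _ hc), key c A B t ht⟩

/-- The constant in the scale. -/
def scaleConst (ε : ℝ) : ℝ := 1600 * (⌈2 / ε⌉₊ + 1 : ℕ)

/-- The constant in the factor. -/
def factorConst (ε : ℝ) : ℝ :=
  8 * (⌈2 / ε⌉₊ + 1 : ℕ) * (3200 * (⌈2 / ε⌉₊ + 1 : ℕ)) * (10000 : ℝ) ^ ε

theorem one_le_scaleConst (ε : ℝ) : 1 ≤ scaleConst ε := by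
  have : (1 : ℝ) ≤ (⌈2 / ε⌉₊ + 1 : ℕ) := by push_cast; linarith [(Nat.cast_nonneg ⌈2 / ε⌉₊ : (0 : ℝ) ≤ _)]
  unfold scaleConst; linarith

theorem one_le_factorConst {ε : ℝ} (hε : 0 ≤ ε) : 1 ≤ factorConst ε := by
  have h1 : (1 : ℝ) ≤ (⌈2 / ε⌉₊ + 1 : ℕ) := by push_cast; linarith [(Nat.cast_nonneg ⌈2 / ε⌉₊ : (0 : ℝ) ≤ _)]
  have h2 : (1 : ℝ) ≤ (10000 : ℝ) ^ ε := one_le_rpow (by norm_num) hε
  unfold factorConst
  set a : ℝ := ((⌈2 / ε⌉₊ + 1 : ℕ) : ℝ)
  have h3 : 1 ≤ 8 * a * (3200 * a) := one_le_mul_of_one_le_of_one_le (by linarith) (by linarith)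
  exact one_le_mul_of_one_le_of_one_le h3 h2

/-- One direction of almost linear duality. -/
theorem log_covN_le (hK : IsBody K) (hL : IsBody L) {ε : ℝ} (hε : 0 < ε) :
    log (covN K L : ℝ) ≤
      factorConst ε * log (covN (polarSet L) ((scaleConst ε)⁻¹ • polarSet K) : ℝ) ^ (1 + ε) := by
  classical
  unfold factorConst scaleConst
  set lev : ℕ := ⌈2 / ε⌉₊ + 1 with hlev
  set δ : ℝ := 1 / (100 * lev) with hδ
  have hlev1 : 1 ≤ lev := Nat.succ_le_succ (Nat.zero_le _)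
  have hlevpos : (0 : ℝ) < lev := by exact_mod_cast hlev1
  have hscale : (0 : ℝ) < (1600 * (lev : ℝ))⁻¹ := by positivity
  obtain ⟨t, htcard, ht⟩ := covN_spec hL.polar.2.1 (hK.polar.smul hscale).2.2.1
  obtain ⟨J, hJ⟩ : ∃ J : ℕ, ∀ x ∈ K, ∀ x' ∈ K, ∀ y ∈ polarSet L, |⟪x - x', y⟫| ≤ (2 : ℝ) ^ J := by
    obtain ⟨R, hR⟩ := hK.2.1.isBounded.exists_norm_le
    obtain ⟨S, hS⟩ := hL.polar.2.1.isBounded.exists_norm_le
    obtain ⟨J, hJ⟩ := pow_unbounded_of_one_lt ((R + R) * S) (one_lt_two (α := ℝ))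
    refine ⟨J, fun x hx x' hx' y hy => (abs_real_inner_le_norm _ _).trans (le_trans ?_ hJ.le)⟩
    have hR0 : 0 ≤ R := (norm_nonneg _).trans (hR x hx)
    exact mul_le_mul ((norm_sub_le _ _).trans (add_le_add (hR x hx) (hR x' hx'))) (hS y hy)
      (norm_nonneg _) (by positivity)
  have htc : ∀ y ∈ polarSet L, ∃ c ∈ t, ∀ k ∈ K, |⟪k, y - c⟫| ≤ δ / 16 := by
    intro y hy
    obtain ⟨c, hc, b, ⟨w, hw, rfl⟩, hb⟩ := mem_iUnion₂.1 (ht hy)
    refine ⟨c, hc, fun k hk => ?_⟩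
    have e : y - c = (1600 * (lev : ℝ))⁻¹ • w := by rw [← hb]; simp [vadd_eq_add]
    have h1 := mul_le_mul_of_nonneg_left (hw k hk) hscale.le
    have h2 := mul_le_mul_of_nonneg_left (hw (-k) (hK.2.2.2 k hk)) hscale.le
    rw [inner_neg_left] at h2
    have h3 : δ / 16 = (1600 * (lev : ℝ))⁻¹ := by rw [hδ]; field_simp; ring
    rw [e, inner_smul_right, h3, abs_le]; constructor <;> linarith
  have hd : (1 / 2 : ℝ) ^ (3200 * lev) ≤ δ / 32 := by
    rw [show δ / 32 = 1 / ((3200 * lev : ℕ) : ℝ) by rw [hδ]; push_cast; field_simp; ring,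
      div_pow, one_pow]
    exact one_div_le_one_div_of_le (by positivity) (by exact_mod_cast (Nat.lt_two_pow_self).le)
  -- the number of rounds
  set l := log (t.card : ℝ) with hl
  have hl0 : 0 ≤ l := log_natCast_nonneg _
  set p : ℝ := 1 / lev with hp
  have hp0 : 0 < p := by positivity
  have hpε : p + p ≤ ε := by
    have h1 : 2 / ε ≤ lev := (Nat.le_ceil _).trans (by rw [hlev]; exact_mod_cast Nat.le_succ _)
    rw [div_le_iff₀ hε] at h1
    rw [hp, ← add_div, div_le_iff₀ hlevpos]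
    linarith
  set x := 10000 * l with hx
  set T : ℕ := ⌈lev + (x ^ p + 1) * log x + 1⌉₊ with hTdef
  have hx0 : 0 ≤ x := by positivity
  have hR : (1 : ℝ) ≤ x ^ p + 1 := by linarith [rpow_nonneg hx0 p]
  have hR2 : x ≤ (2 * (x ^ p + 1)) ^ lev := by
    calc x = (x ^ p) ^ lev := by
          rw [← rpow_natCast, ← rpow_mul hx0, hp, one_div_mul_cancel hlevpos.ne', rpow_one]
      _ ≤ _ := pow_le_pow_left₀ (rpow_nonneg hx0 _) (by linarith [rpow_nonneg hx0 p]) _
  obtain ⟨N, hN, hlogN, c, hc⟩ := exists_code hL.polar.1 (interior_subset hL.polar.zero_mem_interior)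
    hL.polar.2.2.2 J hJ t htc (d := 3200 * lev) (by omega) hd (lev := lev)
    (by rw [hδ]; exact le_of_eq (by field_simp)) hlev1 hR hR2 T (Nat.le_ceil _)
  have hcov : covN K L ≤ N := by
    let rep : Fin N → EuclideanSpace ℝ (Fin n) := fun i =>
      if h : ∃ r ∈ K, c r = i then h.choose else 0
    refine le_trans (Nat.sInf_le ⟨Finset.univ.image rep, rfl, fun x hx => ?_⟩)
      (Finset.card_image_le.trans (by simp))
    have hex : ∃ r ∈ K, c r = c x := ⟨x, hx, rfl⟩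
    have hr : rep (c x) ∈ K ∧ c (rep (c x)) = c x := by
      simp only [rep, dif_pos hex]; exact hex.choose_spec
    refine mem_iUnion₂.2 ⟨rep (c x), Finset.mem_image_of_mem _ (Finset.mem_univ _),
      x - rep (c x), mem_of_forall_polar hL fun y hy => ?_, by simp [vadd_eq_add]⟩
    exact le_of_abs_le (hc x hx _ hr.1 hr.2.symm y hy)
  have hcovlog : log (covN K L : ℝ) ≤ log (N : ℝ) := by
    rcases Nat.eq_zero_or_pos (covN K L) with h | h
    · rw [h, Nat.cast_zero, log_zero]; exact log_natCast_nonneg N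
    · exact log_le_log (by exact_mod_cast h) (by exact_mod_cast hcov)
  refine (hcovlog.trans hlogN).trans ?_
  rw [← htcard]
  change 2 * (T : ℝ) * ((3200 * lev : ℕ) : ℝ) * l ≤
    8 * (lev : ℝ) * (3200 * lev) * (10000 : ℝ) ^ ε * l ^ (1 + ε)
  rcases Nat.lt_or_ge t.card 2 with ht2 | ht2
  · have h0 : l = 0 := by
      rw [hl]
      interval_cases h : t.card <;> simp
    rw [h0, mul_zero, zero_rpow (by linarith), mul_zero]
  have hl2 : 1 / 2 ≤ l := by
    have : log 2 ≤ l := log_le_log (by norm_num) (by exact_mod_cast ht2)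
    linarith [log_two_gt_d9]
  have hx1 : 1 ≤ x := by linarith
  have hxp : 1 ≤ x ^ p := one_le_rpow hx1 hp0.le
  have hxε : 1 ≤ x ^ ε := one_le_rpow hx1 hε.le
  have hlog : log x ≤ lev * x ^ p := by
    have h := log_le_rpow_div hx0 hp0
    have e : x ^ p / p = lev * x ^ p := by rw [hp, div_div_eq_mul_div, div_one]; ring
    linarith
  have hT : (T : ℝ) ≤ 4 * lev * x ^ ε := by
    have h1 := Nat.ceil_lt_add_one (show (0 : ℝ) ≤ lev + (x ^ p + 1) * log x + 1 by
      have := log_nonneg hx1; positivity)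
    have h2 : (x ^ p + 1) * log x ≤ 2 * x ^ p * (lev * x ^ p) :=
      mul_le_mul (by linarith) hlog (log_nonneg hx1) (by positivity)
    have h3 : x ^ p * x ^ p ≤ x ^ ε := by
      rw [← rpow_add (by linarith)]; exact rpow_le_rpow_of_exponent_le hx1 hpε
    have h4 : (2 : ℝ) ≤ lev := by
      have h : 0 < ⌈2 / ε⌉₊ := Nat.ceil_pos.2 (by positivity)
      rw [hlev]; exact_mod_cast (show 2 ≤ ⌈2 / ε⌉₊ + 1 by omega)
    have h5 : (lev : ℝ) ≤ lev * x ^ ε := le_mul_of_one_le_right hlevpos.le hxε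
    have h6 : 2 * x ^ p * (lev * x ^ p) ≤ 2 * lev * x ^ ε := by
      calc 2 * x ^ p * (lev * x ^ p) = 2 * lev * (x ^ p * x ^ p) := by ring
        _ ≤ _ := by gcongr
    linarith
  calc 2 * (T : ℝ) * ((3200 * lev : ℕ) : ℝ) * l
      ≤ 2 * (4 * lev * x ^ ε) * ((3200 * lev : ℕ) : ℝ) * l := by gcongr
    _ = _ := by
      rw [hx, mul_rpow (by norm_num) hl0, rpow_add (by linarith : 0 < l), rpow_one]
      push_cast; ring

end

end Vale.Agent.P126
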