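import Mathlib

/-!
# P126: definitions
-/

namespace Vale.Agent.P126

open scoped RealInnerProductSpace Pointwise

noncomputable section

variable {n : ℕ}

/-- An origin-symmetric convex body. -/
def IsBody (K : Set (EuclideanSpace ℝ (Fin n))) : Prop :=
  Convex ℝ K ∧ IsCompact K ∧ (interior K).Nonempty ∧ ∀ x ∈ K, -x ∈ K

/-- The polar body. -/
def polarSet (K : Set (EuclideanSpace ℝ (Fin n))) : Set (EuclideanSpace ℝ (Fin n)) :=
  {y | ∀ x ∈ K, ⟪x, y⟫ ≤ 1}

/-- The least number of translates of `B` with union containing `A`. -/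
def covN (A B : Set (EuclideanSpace ℝ (Fin n))) : ℕ :=
  sInf {m | ∃ t : Finset (EuclideanSpace ℝ (Fin n)), t.card = m ∧ A ⊆ ⋃ x ∈ t, x +ᵥ B}

end

end Vale.Agent.P126
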