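import Vale.Agent.P126.Tilt

/-!
# P126: the bounded case of duality, exponent close to one

With slope steps `6 δ`, `J = 1/(100 δ)` slope levels and `R` with `10000 L ≤ (2 R)^J`, the tilts
reach excess `1/10000` in `J + R log (10000 L) + 2` rounds, each named by a net point and a bit.
-/

namespace Vale.Agent.P126

open Finset Real
open scoped RealInnerProductSpace

noncomputable section

variable {V : Type*} [NormedAddCommGroup V] [InnerProductSpace ℝ V]

/-- Receiver state: tilt, excess, number of slope levels used. -/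
abbrev St (V : Type*) : Type _ := V × ℝ × ℕ

/-- One round, from its code. -/
def stepSt (δ R : ℝ) (c : V × Bool) (s : St V) : St V :=
  if s.2.1 ≤ 1 / 10000 then s
  else (s.1 + (s.2.1 / (4 * δ * R)) • c.1,
    if c.2 then s.2.1 * (1 - 1 / R) else s.2.1 / (2 * R), if c.2 then s.2.2 else s.2.2 + 1)

open Classical in
/-- The code of a round, computed by the sender. -/
def pickCode (G Z : Finset V) (δ R : ℝ) (f : V) (s : St V) : V × Bool :=
  if h : Z.Nonempty then
    let E := s.2.1 / (4 * δ * R)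
    let z := (exists_max_image Z (fun z => val G f (s.1 + E • z)) h).choose
    (z, decide ((3 * δ + 6 * δ * s.2.2 + 4 * δ) * E ≤ val G f (s.1 + E • z) - val G f s.1))
  else (0, false)

theorem pickCode_spec (G Z : Finset V) (δ R : ℝ) (f : V) (s : St V) (h : Z.Nonempty) :
    (pickCode G Z δ R f s).1 ∈ Z ∧
    (∀ z ∈ Z, val G f (s.1 + (s.2.1 / (4 * δ * R)) • z) ≤
      val G f (s.1 + (s.2.1 / (4 * δ * R)) • (pickCode G Z δ R f s).1)) ∧
    ((pickCode G Z δ R f s).2 = true ↔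
      (3 * δ + 6 * δ * s.2.2 + 4 * δ) * (s.2.1 / (4 * δ * R)) ≤
        val G f (s.1 + (s.2.1 / (4 * δ * R)) • (pickCode G Z δ R f s).1) - val G f s.1) := by
  classical
  unfold pickCode
  rw [dif_pos h]
  have := (exists_max_image Z (fun z => val G f (s.1 + (s.2.1 / (4 * δ * R)) • z)) h).choose_spec
  exact ⟨this.1, this.2, by simp⟩

/-- The state after `t` rounds. -/
def runSt (G Z : Finset V) (δ R L : ℝ) (f : V) : ℕ → St V
  | 0 => (0, L, 0)
  | t + 1 => stepSt δ R (pickCode G Z δ R f (runSt G Z δ R L f t)) (runSt G Z δ R L f t)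

theorem runSt_congr (G Z : Finset V) (δ R L : ℝ) (f f' : V) {T : ℕ}
    (h : ∀ t < T, pickCode G Z δ R f (runSt G Z δ R L f t)
      = pickCode G Z δ R f' (runSt G Z δ R L f' t)) :
    runSt G Z δ R L f T = runSt G Z δ R L f' T := by
  induction T with
  | zero => rfl
  | succ t ih =>
    rw [runSt, runSt, h t t.lt_succ_self, ih fun s hs => h s (hs.trans t.lt_succ_self)]

variable {A Y : Set V} {G Z : Finset V} {δ R L : ℝ} {f : V} {J : ℕ}

theorem run_inv (hY : Convex ℝ Y) (hG : G.Nonempty) (hGA : ↑G ⊆ A) (hZY : ↑Z ⊆ Y) (hne : Z.Nonempty)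
    (hδ : 0 < δ) (hnet : ∀ y ∈ Y, ∃ z ∈ Z, ∀ x ∈ A, |⟪x, y - z⟫| ≤ δ) (hf : f ∈ A)
    (hprior : ∀ y ∈ Y, ∃ g ∈ G, ⟪f, y⟫ ≤ ⟪g, y⟫ + 3 * δ) (hGL : log (G.card : ℝ) ≤ L)
    (hR : 1 ≤ R) (hJ : 10000 * L ≤ (2 * R) ^ J) (t : ℕ) :
    Excess G Y f (runSt G Z δ R L f t).1 (3 * δ + 6 * δ * (runSt G Z δ R L f t).2.2)
        (runSt G Z δ R L f t).2.1 ∧
      (runSt G Z δ R L f t).2.2 ≤ J ∧
      ((runSt G Z δ R L f t).2.1 ≤ 1 / 10000 ∨ ∃ b : ℕ, (runSt G Z δ R L f t).2.2 + b = t ∧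
        (runSt G Z δ R L f t).2.1 * (2 * R) ^ (runSt G Z δ R L f t).2.2 * exp (b / R) ≤ L) := by
  induction t with
  | zero =>
    refine ⟨?_, Nat.zero_le J, Or.inr ⟨0, rfl, by simp [runSt]⟩⟩
    simpa [runSt] using excess_zero hprior hGL
  | succ t ih =>
    simp only [runSt]
    set s := runSt G Z δ R L f t
    obtain ⟨hI, haJ, hD⟩ := ih
    unfold stepSt
    by_cases hfin : s.2.1 ≤ 1 / 10000
    · rw [if_pos hfin]
      exact ⟨hI, haJ, Or.inl hfin⟩
    rw [if_neg hfin]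
    obtain ⟨b, hbt, hDb⟩ := hD.resolve_left hfin
    have hfin' : 1 / 10000 < s.2.1 := lt_of_not_ge hfin
    have hDpos : 0 < s.2.1 := by linarith
    have hR0 : 0 < R := by linarith
    obtain ⟨hzZ, hzmax, hzbool⟩ := pickCode_spec G Z δ R f s hne
    set c := pickCode G Z δ R f s
    set E := s.2.1 / (4 * δ * R) with hEdef
    have hE : 0 < E := by positivity
    have hmax : ∀ y ∈ Y, val G f (s.1 + E • y) ≤ val G f (s.1 + E • c.1) + 2 * δ * E := by
      intro y hy
      obtain ⟨z, hz, hzy⟩ := hnet y hy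
      have h := val_close (c := δ * E) hG f (s.1 + E • y) (s.1 + E • z) (by
          have := (abs_le.1 (hzy f hf)).2
          rw [inner_sub_right] at this
          simp only [inner_add_right, inner_smul_right]
          nlinarith)
        (fun g hg => by
          have := (abs_le.1 (hzy g (hGA hg))).1
          rw [inner_sub_right] at this
          simp only [inner_add_right, inner_smul_right]
          nlinarith)
      linarith [hzmax z hz]
    by_cases hc : c.2 = true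
    · simp only [hc, if_true]
      refine ⟨?_, haJ, Or.inr ⟨b + 1, by omega, ?_⟩⟩
      · have h := excess_gain hY (hZY hzZ) hE hI (hzbool.1 hc)
        rwa [show s.2.1 - 4 * δ * E = s.2.1 * (1 - 1 / R) by rw [hEdef]; field_simp] at h
      · have h1 : (1 - 1 / R) * exp (1 / R) ≤ 1 := by
          calc (1 - 1 / R) * exp (1 / R) ≤ exp (-(1 / R)) * exp (1 / R) :=
                mul_le_mul_of_nonneg_right (by linarith [add_one_le_exp (-(1 / R))]) (exp_pos _).le
            _ = 1 := by rw [← exp_add, neg_add_cancel, exp_zero]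
        calc s.2.1 * (1 - 1 / R) * (2 * R) ^ s.2.2 * exp (((b + 1 : ℕ) : ℝ) / R)
            = s.2.1 * (2 * R) ^ s.2.2 * exp (b / R) * ((1 - 1 / R) * exp (1 / R)) := by
              rw [Nat.cast_succ, add_div, exp_add]; ring
          _ ≤ s.2.1 * (2 * R) ^ s.2.2 * exp (b / R) * 1 :=
              mul_le_mul_of_nonneg_left h1 (by positivity)
          _ ≤ L := by rw [mul_one]; exact hDb
    · simp only [hc]
      have hlt : s.2.2 < J := by
        by_contra hge
        have hsJ : s.2.2 = J := le_antisymm haJ (not_lt.1 hge)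
        have h1 : s.2.1 * (2 * R) ^ s.2.2 * 1 ≤ L :=
          le_trans (mul_le_mul_of_nonneg_left (one_le_exp (by positivity)) (by positivity)) hDb
        rw [mul_one, hsJ] at h1
        have h2 : 0 < (2 * R) ^ J := by positivity
        nlinarith
      refine ⟨?_, hlt, Or.inr ⟨b, by simp only [Bool.false_eq_true, if_false]; omega, ?_⟩⟩
      · have hgain : val G f (s.1 + E • c.1) - val G f s.1 ≤ (3 * δ + 6 * δ * s.2.2 + 4 * δ) * E := by
          rcases le_total (val G f (s.1 + E • c.1) - val G f s.1)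
            ((3 * δ + 6 * δ * s.2.2 + 4 * δ) * E) with h | h
          · exact h
          · exact absurd (hzbool.2 h) hc
        have h := excess_stall hG hY (hZY hzZ) hE hmax hgain
        simp only [Bool.false_eq_true, if_false]
        rw [show 2 * δ * E = s.2.1 / (2 * R) by rw [hEdef]; field_simp; ring] at h
        convert h using 1
        push_cast; ring
      · simp only [Bool.false_eq_true, if_false]
        rw [pow_succ]
        calc s.2.1 / (2 * R) * ((2 * R) ^ s.2.2 * (2 * R)) * exp (b / R)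
            = s.2.1 * (2 * R) ^ s.2.2 * exp (b / R) := by field_simp
          _ ≤ L := hDb

/-- After enough rounds the tilted mean is close to the target. -/
theorem run_final (hY : Convex ℝ Y) (hsym : ∀ y ∈ Y, -y ∈ Y) (hG : G.Nonempty) (hGA : ↑G ⊆ A)
    (hZY : ↑Z ⊆ Y) (hne : Z.Nonempty) (hbd : ∀ x ∈ A, ∀ y ∈ Y, |⟪x, y⟫| ≤ 2)
    (hδ : 0 < δ) (hδJ : 100 * δ * J ≤ 1) (hJ1 : 1 ≤ J)
    (hnet : ∀ y ∈ Y, ∃ z ∈ Z, ∀ x ∈ A, |⟪x, y - z⟫| ≤ δ) (hf : f ∈ A)
    (hprior : ∀ y ∈ Y, ∃ g ∈ G, ⟪f, y⟫ ≤ ⟪g, y⟫ + 3 * δ) (hGL : log (G.card : ℝ) ≤ L)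
    (hR : 1 ≤ R) (hJ : 10000 * L ≤ (2 * R) ^ J) {T : ℕ} (hT : J + R * log (10000 * L) + 1 ≤ T)
    {y : V} (hy : y ∈ Y) : |⟪f - tiltMean G (runSt G Z δ R L f T).1, y⟫| ≤ 2 / 5 := by
  obtain ⟨hI, haJ, hD⟩ := run_inv hY hG hGA hZY hne hδ hnet hf hprior hGL hR hJ T
  set s := runSt G Z δ R L f T
  have hsmall : s.2.1 ≤ 1 / 10000 := by
    rcases hD with h | ⟨b, hbT, hDb⟩
    · exact h
    by_contra hlt
    rw [not_le] at hlt
    have h1 : (1 / 10000 : ℝ) * exp (b / R) ≤ L := by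
      calc (1 / 10000 : ℝ) * exp (b / R) ≤ s.2.1 * exp (b / R) :=
            mul_le_mul_of_nonneg_right hlt.le (exp_pos _).le
        _ ≤ s.2.1 * (2 * R) ^ s.2.2 * exp (b / R) := by
            refine mul_le_mul_of_nonneg_right ?_ (exp_pos _).le
            exact le_mul_of_one_le_right (by linarith) (one_le_pow₀ (by linarith))
        _ ≤ L := hDb
    have h2 : (b : ℝ) / R ≤ log (10000 * L) := by
      have h3 := log_le_log (exp_pos _) (show exp (b / R) ≤ 10000 * L by linarith)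
      rwa [log_exp] at h3
    rw [div_le_iff₀ (by linarith)] at h2
    have h4 : (s.2.2 : ℝ) + b = T := by exact_mod_cast hbT
    have h5 : (s.2.2 : ℝ) ≤ J := by exact_mod_cast haJ
    nlinarith
  have hone : ∀ y ∈ Y, ⟪f - tiltMean G s.1, y⟫ ≤ 2 / 5 := by
    intro y hy
    have h1 := tilt_gradient (f := f) (v := s.1) hG (fun g hg => hbd g (hGA hg) y hy)
      (x := 1 / 100) (by norm_num) (by norm_num)
    have h2 := hI y hy (1 / 100) (by norm_num)
    have h3 : (s.2.2 : ℝ) * δ ≤ J * δ := mul_le_mul_of_nonneg_right (by exact_mod_cast haJ) hδ.le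
    have h4 : δ ≤ J * δ := le_mul_of_one_le_left hδ.le (by exact_mod_cast hJ1)
    nlinarith
  rw [abs_le]
  refine ⟨?_, hone y hy⟩
  have := hone (-y) (hsym y hy)
  rw [inner_neg_right] at this
  linarith

/-- The bounded case: few classes, each of small diameter. -/
theorem local_code (hY : Convex ℝ Y) (hsym : ∀ y ∈ Y, -y ∈ Y) (hZY : ↑Z ⊆ Y) (hne : Z.Nonempty)
    (hbd : ∀ x ∈ A, ∀ y ∈ Y, |⟪x, y⟫| ≤ 2)
    (hδ : 0 < δ) (hδJ : 100 * δ * J ≤ 1) (hJ1 : 1 ≤ J)
    (hnet : ∀ y ∈ Y, ∃ z ∈ Z, ∀ x ∈ A, |⟪x, y - z⟫| ≤ δ) (hR : 1 ≤ R)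
    (hZL : log (Z.card : ℝ) ≤ L) (hJ : 10000 * L ≤ (2 * R) ^ J) (T : ℕ)
    (hT : J + R * log (10000 * L) + 1 ≤ T) :
    ∃ N : ℕ, 0 < N ∧ log N ≤ 2 * T * log (Z.card : ℝ) ∧
      ∃ c : V → Fin N, ∀ x ∈ A, ∀ x' ∈ A, c x = c x' → ∀ y ∈ Y, |⟪x - x', y⟫| ≤ 1 := by
  classical
  have hJ1' : (1 : ℝ) ≤ J := by exact_mod_cast hJ1
  have hδsmall : δ ≤ 1 / 100 := by nlinarith
  by_cases hcard : Z.card = 1
  · refine ⟨1, one_pos, by simp [hcard], fun _ => 0, fun x hx x' hx' _ y hy => ?_⟩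
    obtain ⟨z₀, hz₀⟩ := card_eq_one.1 hcard
    obtain ⟨z, hz, h1⟩ := hnet y hy
    obtain ⟨z', hz', h2⟩ := hnet (-y) (hsym y hy)
    rw [hz₀, mem_singleton] at hz hz'
    subst hz hz'
    have a1 := abs_le.1 (h1 x hx)
    have a2 := abs_le.1 (h1 x' hx')
    have b1 := abs_le.1 (h2 x hx)
    have b2 := abs_le.1 (h2 x' hx')
    simp only [inner_sub_right, inner_neg_right] at a1 a2 b1 b2
    rw [inner_sub_left, abs_le]; constructor <;> linarith
  rcases A.eq_empty_or_nonempty with hA | hA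
  · exact ⟨1, one_pos, by simp only [Nat.cast_one, log_one]; positivity, fun _ => 0,
      fun x hx => absurd hx (by simp [hA])⟩
  have h2 : 2 ≤ Z.card := by have := hne.card_pos; omega
  have hmax : ∀ z ∈ Z, ∃ g ∈ A, ∀ x ∈ A, ⟪x, z⟫ ≤ ⟪g, z⟫ + δ := by
    intro z hz
    have hb : BddAbove ((fun x => ⟪x, z⟫) '' A) :=
      ⟨2, by rintro _ ⟨x, hx, rfl⟩; exact (abs_le.1 (hbd x hx z (hZY hz))).2⟩
    obtain ⟨_, ⟨g, hg, rfl⟩, hgs⟩ := exists_lt_of_lt_csSup (hA.image (fun x => ⟪x, z⟫))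
      (show sSup ((fun x => ⟪x, z⟫) '' A) - δ < sSup ((fun x => ⟪x, z⟫) '' A) by linarith)
    refine ⟨g, hg, fun x hx => ?_⟩
    have := le_csSup hb ⟨x, hx, rfl⟩
    simp only at this hgs ⊢
    linarith
  choose! top htopA htop using hmax
  set G := Z.image top with hGdef
  have hG : G.Nonempty := hne.image top
  have hGA : ↑G ⊆ A := by
    intro g hg
    obtain ⟨z, hz, rfl⟩ := mem_image.1 hg
    exact htopA z hz
  have hGL : log (G.card : ℝ) ≤ L := le_trans (log_le_log (by exact_mod_cast hG.card_pos)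
    (by exact_mod_cast card_image_le)) hZL
  have hprior : ∀ f ∈ A, ∀ y ∈ Y, ∃ g ∈ G, ⟪f, y⟫ ≤ ⟪g, y⟫ + 3 * δ := by
    intro f hf y hy
    obtain ⟨z, hz, hzy⟩ := hnet y hy
    refine ⟨top z, mem_image_of_mem top hz, ?_⟩
    have a1 := abs_le.1 (hzy f hf)
    have a2 := abs_le.1 (hzy _ (htopA z hz))
    simp only [inner_sub_right] at a1 a2
    linarith [htop z hz f hf]
  let U := Fin T → ↥Z × Bool
  have : Nonempty ↥Z := ⟨⟨_, hne.choose_spec⟩⟩
  let e : U ≃ Fin (Fintype.card U) := Fintype.equivFin U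
  refine ⟨Fintype.card U, Fintype.card_pos, ?_, fun x => e fun t =>
    (⟨(pickCode G Z δ R x (runSt G Z δ R L x t)).1, (pickCode_spec G Z δ R x _ hne).1⟩,
      (pickCode G Z δ R x (runSt G Z δ R L x t)).2), fun x hx x' hx' hxx y hy => ?_⟩
  · have hU : Fintype.card U = (Z.card * 2) ^ T := by simp [U]
    rw [hU]
    push_cast
    rw [log_pow, log_mul (by positivity) (by norm_num)]
    have : log 2 ≤ log (Z.card : ℝ) := log_le_log (by norm_num) (by exact_mod_cast h2)
    nlinarith [(Nat.cast_nonneg T : (0 : ℝ) ≤ T)]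
  · have hrun : runSt G Z δ R L x T = runSt G Z δ R L x' T :=
      runSt_congr G Z δ R L x x' fun t ht => by
        have h := congrFun (e.injective hxx) ⟨t, ht⟩
        simp only [Prod.mk.injEq, Subtype.mk.injEq] at h
        exact Prod.ext h.1 h.2
    have k1 := abs_le.1 (run_final hY hsym hG hGA hZY hne hbd hδ hδJ hJ1 hnet hx (hprior x hx)
      hGL hR hJ hT hy)
    have k2 := abs_le.1 (run_final hY hsym hG hGA hZY hne hbd hδ hδJ hJ1 hnet hx' (hprior x' hx')
      hGL hR hJ hT hy)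
    rw [hrun] at k1
    simp only [inner_sub_left] at k1 k2 ⊢
    rw [abs_le]; constructor <;> linarith

end

end Vale.Agent.P126
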