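import Mathlib

/-!
# P126: exponential tilts

For a finite set `G` and a target `f`, the tilt value of `v` is `⟪f,v⟫ - log ∑ exp ⟪g,v⟫`.  It is
concave in `v`; the excess over slope `s` along a symmetric convex set `Y` is kept as an invariant.
-/

namespace Vale.Agent.P126

open Finset Real
open scoped RealInnerProductSpace

noncomputable section

variable {V : Type*} [NormedAddCommGroup V] [InnerProductSpace ℝ V]

/-- The value of a tilt. -/
def val (G : Finset V) (f v : V) : ℝ := ⟪f, v⟫ - log (∑ g ∈ G, exp ⟪g, v⟫)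

/-- The mean of `G` under a tilt. -/
def tiltMean (G : Finset V) (v : V) : V := G.centerMass (fun g => exp ⟪g, v⟫) id

/-- The excess over slope `s` along `Y` is at most `D`. -/
def Excess (G : Finset V) (Y : Set V) (f v : V) (s D : ℝ) : Prop :=
  ∀ y ∈ Y, ∀ x : ℝ, 0 ≤ x → val G f (v + x • y) - val G f v ≤ s * x + D

variable {G : Finset V} {Y : Set V} {f : V}

theorem sum_exp_pos (hG : G.Nonempty) (v : V) : 0 < ∑ g ∈ G, exp ⟪g, v⟫ :=
  sum_pos (fun _ _ => exp_pos _) hG

theorem val_concave (hG : G.Nonempty) (f u w : V) {t : ℝ} (h0 : 0 ≤ t) (h1 : t ≤ 1) :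
    t * val G f u + (1 - t) * val G f w ≤ val G f (t • u + (1 - t) • w) := by
  set A := ∑ g ∈ G, exp ⟪g, u⟫ with hA
  set B := ∑ g ∈ G, exp ⟪g, w⟫ with hB
  have hApos : 0 < A := sum_exp_pos hG u
  have hBpos : 0 < B := sum_exp_pos hG w
  have hterm : ∀ g ∈ G, exp ⟪g, t • u + (1 - t) • w⟫ ≤
      exp (t * log A + (1 - t) * log B) * (t * (exp ⟪g, u⟫ / A) + (1 - t) * (exp ⟪g, w⟫ / B)) := by
    intro g _
    have h := (convexOn_exp).2 (Set.mem_univ (⟪g, u⟫ - log A)) (Set.mem_univ (⟪g, w⟫ - log B))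
      h0 (show 0 ≤ 1 - t by linarith) (by ring)
    simp only [smul_eq_mul, exp_sub, exp_log hApos, exp_log hBpos] at h
    calc exp ⟪g, t • u + (1 - t) • w⟫
        = exp (t * log A + (1 - t) * log B) *
            exp (t * (⟪g, u⟫ - log A) + (1 - t) * (⟪g, w⟫ - log B)) := by
          rw [← exp_add, inner_add_right, inner_smul_right, inner_smul_right]; ring_nf
      _ ≤ _ := mul_le_mul_of_nonneg_left h (exp_pos _).le
  have hsum := sum_le_sum hterm
  rw [← mul_sum, sum_add_distrib, ← mul_sum, ← mul_sum, ← sum_div, ← sum_div, ← hA, ← hB,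
    div_self hApos.ne', div_self hBpos.ne', mul_one, mul_one, add_sub_cancel, mul_one] at hsum
  have hlog := log_le_log (sum_exp_pos hG _) hsum
  rw [log_exp] at hlog
  unfold val
  rw [inner_add_right, inner_smul_right, inner_smul_right, ← hA, ← hB]
  nlinarith

theorem val_close (hG : G.Nonempty) (f u w : V) {c : ℝ} (hf : ⟪f, u⟫ - ⟪f, w⟫ ≤ c)
    (hg : ∀ g ∈ G, ⟪g, w⟫ - ⟪g, u⟫ ≤ c) : val G f u ≤ val G f w + 2 * c := by
  have hsum : ∑ g ∈ G, exp ⟪g, w⟫ ≤ exp c * ∑ g ∈ G, exp ⟪g, u⟫ := by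
    rw [mul_sum]
    refine sum_le_sum fun g hg' => ?_
    rw [← exp_add]
    exact exp_le_exp.2 (by linarith [hg g hg'])
  have h := log_le_log (sum_exp_pos hG w) hsum
  rw [log_mul (exp_pos _).ne' (sum_exp_pos hG u).ne', log_exp] at h
  unfold val
  linarith

theorem exp_quad {u : ℝ} (hu : |u| ≤ 1) : exp u ≤ 1 + u + u ^ 2 := by
  linarith [(abs_le.1 (abs_exp_sub_one_sub_id_le hu)).2]

theorem tilt_gradient (hG : G.Nonempty) {v y : V} (hy : ∀ g ∈ G, |⟪g, y⟫| ≤ 2) {x : ℝ} (hx0 : 0 ≤ x)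
    (hx : x ≤ 1 / 4) :
    x * ⟪f - tiltMean G v, y⟫ - 16 * x ^ 2 ≤ val G f (v + x • y) - val G f v := by
  set w : V → ℝ := fun g => exp ⟪g, v⟫ with hw
  set S := ∑ g ∈ G, w g with hS
  have hSpos : 0 < S := sum_exp_pos hG v
  set m := ⟪tiltMean G v, y⟫ with hm
  have hmean : ∑ g ∈ G, w g * ⟪g, y⟫ = S * m := by
    have e : tiltMean G v = S⁻¹ • ∑ g ∈ G, w g • g := rfl
    rw [hm, e, inner_smul_left, sum_inner, conj_trivial, ← mul_assoc, mul_inv_cancel₀ hSpos.ne',
      one_mul]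
    exact sum_congr rfl fun g _ => by rw [inner_smul_left, conj_trivial]
  have hm2 : |m| ≤ 2 := by
    have h1 : |S * m| ≤ S * 2 := by
      rw [← hmean, hS, sum_mul]
      refine (abs_sum_le_sum_abs _ _).trans (sum_le_sum fun g hg => ?_)
      rw [abs_mul, abs_of_pos (exp_pos _)]
      exact mul_le_mul_of_nonneg_left (hy g hg) (exp_pos _).le
    rw [abs_mul, abs_of_pos hSpos] at h1
    exact le_of_mul_le_mul_left h1 hSpos
  have hterm : ∀ g ∈ G, exp ⟪g, v + x • y⟫ ≤
      exp (x * m) * (w g * (1 + 16 * x ^ 2) + x * (w g * ⟪g, y⟫ - w g * m)) := by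
    intro g hg
    have h4 : |⟪g, y⟫ - m| ≤ 4 := by
      have h1 := abs_le.1 (hy g hg)
      have h2 := abs_le.1 hm2
      rw [abs_le]; constructor <;> linarith
    have hu : |x * (⟪g, y⟫ - m)| ≤ 4 * x := by
      rw [abs_mul, abs_of_nonneg hx0]
      calc x * |⟪g, y⟫ - m| ≤ x * 4 := mul_le_mul_of_nonneg_left h4 hx0
        _ = _ := by ring
    have hsq : (x * (⟪g, y⟫ - m)) ^ 2 ≤ 16 * x ^ 2 := by
      rw [← sq_abs]
      calc |x * (⟪g, y⟫ - m)| ^ 2 ≤ (4 * x) ^ 2 := pow_le_pow_left₀ (abs_nonneg _) hu 2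
        _ = _ := by ring
    calc exp ⟪g, v + x • y⟫ = exp (x * m) * (w g * exp (x * (⟪g, y⟫ - m))) := by
          rw [hw]; simp only [← exp_add, inner_add_right, inner_smul_right]; ring_nf
      _ ≤ exp (x * m) * (w g * (1 + x * (⟪g, y⟫ - m) + 16 * x ^ 2)) := by
          gcongr
          linarith [exp_quad (hu.trans (by linarith))]
      _ = _ := by ring
  have hsum := sum_le_sum hterm
  rw [← mul_sum, sum_add_distrib, ← sum_mul, ← mul_sum, sum_sub_distrib, ← sum_mul, hmean, ← hS,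
    sub_self, mul_zero, add_zero] at hsum
  have hlog := log_le_log (sum_exp_pos hG _) (hsum.trans (mul_le_mul_of_nonneg_left
    (mul_le_mul_of_nonneg_left (add_comm (1 : ℝ) _ ▸ add_one_le_exp (16 * x ^ 2)) hSpos.le)
    (exp_pos _).le))
  rw [log_mul (exp_pos _).ne' (by positivity), log_mul hSpos.ne' (exp_pos _).ne', log_exp,
    log_exp] at hlog
  unfold val
  rw [inner_add_right, inner_smul_right, inner_sub_left, ← hm]
  nlinarith

theorem excess_zero {c L : ℝ} (hc : ∀ y ∈ Y, ∃ g ∈ G, ⟪f, y⟫ ≤ ⟪g, y⟫ + c)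
    (hL : log (G.card : ℝ) ≤ L) : Excess G Y f 0 c L := by
  intro y hy x hx
  obtain ⟨g, hg, hgy⟩ := hc y hy
  have h1 := log_le_log (exp_pos _)
    (single_le_sum (f := fun g => exp ⟪g, (0 : V) + x • y⟫) (fun g _ => (exp_pos _).le) hg)
  rw [log_exp] at h1
  have h2 : val G f 0 = -log (G.card : ℝ) := by simp [val]
  unfold val at h2 ⊢
  rw [h2]
  simp only [zero_add, inner_smul_right] at h1 ⊢
  nlinarith [mul_le_mul_of_nonneg_left hgy hx]

theorem combine_mem (hY : Convex ℝ Y) {y z : V} (hy : y ∈ Y) (hz : z ∈ Y) {x E : ℝ} (hx : 0 ≤ x)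
    (hE : 0 < E) : ∃ y' ∈ Y, (E + x) • y' = E • z + x • y := by
  refine ⟨(E / (E + x)) • z + (x / (E + x)) • y,
    hY hz hy (by positivity) (by positivity) (by field_simp), ?_⟩
  rw [smul_add, smul_smul, smul_smul, mul_div_cancel₀ _ (by linarith : E + x ≠ 0),
    mul_div_cancel₀ _ (by linarith : E + x ≠ 0)]

/-- A large gain lowers the excess at the same slope. -/
theorem excess_gain (hY : Convex ℝ Y) {v z : V} (hz : z ∈ Y) {s D u E : ℝ} (hE : 0 < E)
    (hI : Excess G Y f v s D) (hgain : (s + u) * E ≤ val G f (v + E • z) - val G f v) :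
    Excess G Y f (v + E • z) s (D - u * E) := by
  intro y hy x hx
  obtain ⟨y', hy', he⟩ := combine_mem hY hy hz hx hE
  have h := hI y' hy' (E + x) (by linarith)
  rw [he, ← add_assoc] at h
  linarith

/-- A small gain lowers the excess at a slightly larger slope. -/
theorem excess_stall (hG : G.Nonempty) (hY : Convex ℝ Y) {v z : V} (hz : z ∈ Y) {s u e E : ℝ}
    (hE : 0 < E) (hmax : ∀ y ∈ Y, val G f (v + E • y) ≤ val G f (v + E • z) + e * E)
    (hgain : val G f (v + E • z) - val G f v ≤ (s + u) * E) :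
    Excess G Y f (v + E • z) (s + u + e) (e * E) := by
  intro y hy x hx
  obtain ⟨y', hy', he⟩ := combine_mem hY hy hz hx hE
  have hEx : 0 < E + x := by linarith
  have hc := val_concave hG f (v + E • z + x • y) v (t := E / (E + x)) (by positivity)
    (by rw [div_le_one hEx]; linarith)
  have hpt : (E / (E + x)) • (v + E • z + x • y) + (1 - E / (E + x)) • v = v + E • y' := by
    rw [add_assoc, ← he, smul_add, smul_smul, div_mul_cancel₀ _ hEx.ne', sub_smul, one_smul]
    abel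
  rw [hpt] at hc
  have hm := hmax y' hy'
  set P := val G f (v + E • z + x • y)
  set M := val G f (v + E • z)
  set W := val G f v
  set Q := val G f (v + E • y')
  have hmul : E * P + x * W ≤ (E + x) * Q := by
    have h := mul_le_mul_of_nonneg_left hc hEx.le
    calc E * P + x * W = (E + x) * (E / (E + x) * P + (1 - E / (E + x)) * W) := by field_simp; ring
      _ ≤ _ := h
  have hg2 := mul_le_mul_of_nonneg_left hgain hx
  have hm2 := mul_le_mul_of_nonneg_left hm hEx.le
  refine le_of_mul_le_mul_left (a := E) ?_ hE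
  nlinarith

end

end Vale.Agent.P126
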